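import Vale.Agent.P194.Indicable.StableFinite

/-!
Group algebras of sofic groups are stably finite.
-/

open scoped Classical

namespace Vale.Agent.P194.Indicable

open MonoidAlgebra

/-- Soficity: every finite set is represented by permutations of a finite nonempty set that are
almost multiplicative and almost free. -/
def IsSofic (G : Type*) [Group G] : Prop :=
  ∀ (F : Finset G) (m : ℕ), ∃ n : ℕ, 0 < n ∧ ∃ σ : G → Equiv.Perm (Fin n),
    (∀ g ∈ F, ∀ h ∈ F,
      m * (Finset.univ.filter fun x => σ (g * h) x ≠ σ g (σ h x)).card ≤ n) ∧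
    ∀ g ∈ F, g ≠ 1 → m * (Finset.univ.filter fun x => σ g x = x).card ≤ n

variable {K : Type*} [Field K] {G : Type*} [Group G] {k n : ℕ}

/-- The matrix of an element in an approximate action. -/
noncomputable def approxEntry (σ : G → Equiv.Perm (Fin n)) (a : MonoidAlgebra K G)
    (x y : Fin n) : K :=
  a.coeff.sum fun g c => if σ g y = x then c else 0

/-- The block matrix of a matrix over the group algebra. -/
noncomputable def approxMat (σ : G → Equiv.Perm (Fin n))
    (A : Matrix (Fin k) (Fin k) (MonoidAlgebra K G)) :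
    Matrix (Fin k × Fin n) (Fin k × Fin n) K :=
  Matrix.of fun p q => approxEntry σ (A p.1 q.1) p.2 q.2

lemma approxEntry_add (σ : G → Equiv.Perm (Fin n)) (a b : MonoidAlgebra K G) (x y : Fin n) :
    approxEntry σ (a + b) x y = approxEntry σ a x y + approxEntry σ b x y := by
  simp only [approxEntry, coeff_add]
  exact Finsupp.sum_add_index' (fun _ => by simp) (fun _ _ _ => by split_ifs <;> simp)

lemma approxEntry_zero (σ : G → Equiv.Perm (Fin n)) (x y : Fin n) :
    approxEntry σ (0 : MonoidAlgebra K G) x y = 0 := by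
  simp [approxEntry]

omit [Group G] in
lemma approxEntry_single (σ : G → Equiv.Perm (Fin n)) (g : G) (c : K) (x y : Fin n) :
    approxEntry σ (single g c) x y = if σ g y = x then c else 0 := by
  simp [approxEntry]

lemma approxEntry_sum {ι : Type*} (s : Finset ι) (σ : G → Equiv.Perm (Fin n))
    (f : ι → MonoidAlgebra K G) (x y : Fin n) :
    approxEntry σ (∑ i ∈ s, f i) x y = ∑ i ∈ s, approxEntry σ (f i) x y := by
  induction s using Finset.induction_on with
  | empty => simp [approxEntry_zero]
  | insert i s hi ih => rw [Finset.sum_insert hi, Finset.sum_insert hi, approxEntry_add, ih]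

lemma approxEntry_mul (σ : G → Equiv.Perm (Fin n)) (a b : MonoidAlgebra K G) (x y : Fin n)
    (hy : ∀ g ∈ a.coeff.support, ∀ h ∈ b.coeff.support, σ (g * h) y = σ g (σ h y)) :
    approxEntry σ (a * b) x y = ∑ z, approxEntry σ a x z * approxEntry σ b z y := by
  have hab : a * b = ∑ g ∈ a.coeff.support, ∑ h ∈ b.coeff.support,
      single (g * h) (a.coeff g * b.coeff h) := by
    conv_lhs => rw [← MonoidAlgebra.sum_coeff_single a, ← MonoidAlgebra.sum_coeff_single b]
    simp [Finsupp.sum, Finset.sum_mul, Finset.mul_sum, MonoidAlgebra.single_mul_single]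
    rw [Finset.sum_comm]
  rw [hab]
  simp only [approxEntry_sum, approxEntry_single]
  simp only [approxEntry, Finsupp.sum]
  simp only [Finset.sum_mul, Finset.mul_sum]
  conv_rhs => rw [Finset.sum_comm]
  rw [Finset.sum_comm]
  refine Finset.sum_congr rfl fun h hh => ?_
  conv_rhs => rw [Finset.sum_comm]
  refine Finset.sum_congr rfl fun g hg => ?_
  rw [Finset.sum_eq_single (σ h y) (fun z _ hz => by simp [Ne.symm hz]) (by simp)]
  rw [← hy g hg h hh]
  split_ifs <;> simp_all

/-- Vectors supported on good points. -/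
noncomputable def extendZero (s : Finset (Fin n)) :
    (Fin k × s → K) →ₗ[K] (Fin k × Fin n → K) where
  toFun v p := if h : p.2 ∈ s then v (p.1, ⟨p.2, h⟩) else 0
  map_add' u v := by
    funext p
    by_cases h : p.2 ∈ s <;> simp [h]
  map_smul' c v := by
    funext p
    by_cases h : p.2 ∈ s <;> simp [h]

lemma extendZero_injective (s : Finset (Fin n)) :
    Function.Injective (extendZero (K := K) (k := k) s) := by
  intro u v huv
  funext p
  have := congrFun huv (p.1, p.2.1)
  simpa [extendZero, p.2.2] using this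

lemma mulVec_congr_extendZero (s : Finset (Fin n))
    (M M' : Matrix (Fin k × Fin n) (Fin k × Fin n) K)
    (h : ∀ p q, q.2 ∈ s → M p q = M' p q) (v : Fin k × s → K) :
    M.mulVec (extendZero s v) = M'.mulVec (extendZero s v) := by
  funext p
  refine Finset.sum_congr rfl fun q _ => ?_
  by_cases hq : q.2 ∈ s
  · change M p q * _ = M' p q * _
    rw [h p q hq]
  · simp [extendZero, hq]

/-- Elek and Szabó: group algebras of sofic groups are stably finite. -/
theorem stablyFinite_of_sofic (hG : IsSofic G) : IsStablyFiniteRing (MonoidAlgebra K G) := by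
  refine ⟨fun k => ⟨fun {A B} hAB => ?_⟩⟩
  by_contra hne
  obtain ⟨i₀, j₀, hij⟩ : ∃ i j, (1 - B * A) i j ≠ 0 := by
    by_contra hc
    push Not at hc
    exact hne (sub_eq_zero.mp (Matrix.ext hc : 1 - B * A = 0)).symm
  set E := 1 - B * A with hE
  obtain ⟨g₀, hg₀⟩ : ∃ g, (E i₀ j₀).coeff g ≠ 0 := by
    by_contra hc
    push Not at hc
    exact hij (by ext g; simp [hc g])
  let S := (E i₀ j₀).coeff.support
  let sup : Matrix (Fin k) (Fin k) (MonoidAlgebra K G) → Finset G :=
    fun M => Finset.univ.biUnion fun p : Fin k × Fin k => (M p.1 p.2).coeff.support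
  have hsup : ∀ M i j, (M i j).coeff.support ⊆ sup M := fun M i j g hg =>
    Finset.mem_biUnion.mpr ⟨(i, j), Finset.mem_univ _, hg⟩
  let F₀ := sup A ∪ sup B ∪ sup E ∪ {1}
  let F₁ := F₀ ∪ F₀.image (·⁻¹)
  let F := F₁ ∪ (F₁ ×ˢ F₁).image fun p => p.1 * p.2
  let C := F.card * F.card + F.card
  let D := (2 * k + 1) * (S.card * S.card + 1)
  obtain ⟨n, hn, σ, hmul, hfree⟩ := hG F (D * C + 1)
  let bad : Finset (Fin n) :=
    ((F ×ˢ F).biUnion fun p => Finset.univ.filter fun x => σ (p.1 * p.2) x ≠ σ p.1 (σ p.2 x)) ∪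
      (F.erase 1).biUnion fun g => Finset.univ.filter fun x => σ g x = x
  let good := badᶜ
  have hbad : (D * C + 1) * bad.card ≤ C * n := by
    refine (Nat.mul_le_mul le_rfl (Finset.card_union_le _ _)).trans ?_
    rw [Nat.mul_add, show C * n = F.card * F.card * n + F.card * n from Nat.add_mul _ _ _]
    refine Nat.add_le_add ?_ ?_
    · refine (Nat.mul_le_mul le_rfl Finset.card_biUnion_le).trans ?_
      rw [Finset.mul_sum, ← Finset.card_product]
      calc _ ≤ ∑ _p ∈ F ×ˢ F, n := Finset.sum_le_sum fun p hp =>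
              hmul _ (Finset.mem_product.mp hp).1 _ (Finset.mem_product.mp hp).2
        _ = _ := by simp
    · refine (Nat.mul_le_mul le_rfl Finset.card_biUnion_le).trans ?_
      rw [Finset.mul_sum]
      calc _ ≤ ∑ _g ∈ F.erase 1, n := Finset.sum_le_sum fun g hg =>
              hfree g (Finset.mem_erase.mp hg).2 (Finset.mem_erase.mp hg).1
        _ ≤ _ := by
          simp only [Finset.sum_const, smul_eq_mul]
          exact Nat.mul_le_mul (Finset.card_erase_le) le_rfl
  have hgood : ∀ y ∈ good, (∀ g ∈ F, ∀ h ∈ F, σ (g * h) y = σ g (σ h y)) ∧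
      ∀ g ∈ F, g ≠ 1 → σ g y ≠ y := by
    intro y hy
    simp only [good, bad, Finset.mem_compl, Finset.mem_union, Finset.mem_biUnion,
      Finset.mem_product, Finset.mem_filter, Finset.mem_univ, true_and, Finset.mem_erase,
      not_or, not_exists, not_and, not_not] at hy
    exact ⟨fun g hg h hh => hy.1 (g, h) ⟨hg, hh⟩, fun g hg hg1 => hy.2 g ⟨hg1, hg⟩⟩
  have hF₀ : F₀ ⊆ F := fun g hg =>
    Finset.mem_union_left _ (Finset.mem_union_left _ hg)
  have hA : sup A ⊆ F := fun g hg => hF₀ (by simp [F₀, hg])
  have hB : sup B ⊆ F := fun g hg => hF₀ (by simp [F₀, hg])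
  have h1F₁ : (1 : G) ∈ F₁ := Finset.mem_union_left _ (by simp [F₀])
  have h1 : (1 : G) ∈ F := Finset.mem_union_left _ h1F₁
  have hone : ∀ y ∈ good, σ 1 y = y := by
    intro y hy
    have := (hgood y hy).1 1 h1 1 h1
    rw [one_mul] at this
    exact ((σ 1).injective this).symm
  let T : Matrix (Fin k) (Fin k) (MonoidAlgebra K G) → _ := approxMat (K := K) σ
  have hTmul : ∀ M M', sup M ⊆ F → sup M' ⊆ F → ∀ p q, q.2 ∈ good →
      T (M * M') p q = (T M * T M') p q := by
    intro M M' hM hM' p q hq
    simp only [T, approxMat, Matrix.of_apply, Matrix.mul_apply, approxEntry_sum,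
      Fintype.sum_prod_type]
    refine Finset.sum_congr rfl fun l _ => ?_
    exact approxEntry_mul σ _ _ _ _ fun g hg h hh =>
      (hgood _ hq).1 g (hM (hsup _ _ _ hg)) h (hM' (hsup _ _ _ hh))
  have hTone : ∀ p q, q.2 ∈ good → T 1 p q = (1 : Matrix _ _ K) p q := by
    rintro ⟨i, x⟩ ⟨j, y⟩ hy
    by_cases hij : i = j
    · subst hij
      simp [T, approxMat, approxEntry, MonoidAlgebra.one_def, hone y hy, Matrix.one_apply,
        eq_comm]
    · simp [T, approxMat, approxEntry, hij, Matrix.one_apply]
  let W := LinearMap.range (extendZero (K := K) (k := k) good)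
  have hW : Module.finrank K W = k * good.card := by
    rw [LinearMap.finrank_range_of_inj (extendZero_injective good)]
    simp
  let X := T A
  let Y := T B
  let Kxy := LinearMap.ker ((1 - X * Y).mulVecLin)
  let Kyx := LinearMap.ker ((1 - Y * X).mulVecLin)
  let KE := LinearMap.ker ((T E).mulVecLin)
  have hWxy : W ≤ Kxy := by
    rintro _ ⟨v, rfl⟩
    simp only [Kxy, LinearMap.mem_ker, Matrix.mulVecLin_apply, Matrix.sub_mulVec,
      Matrix.one_mulVec]
    rw [sub_eq_zero]
    have e1 := mulVec_congr_extendZero (k := k) good (T (A * B)) (X * Y)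
      (hTmul A B hA hB) v
    have e2 := mulVec_congr_extendZero (k := k) good (T 1) 1 hTone v
    rw [hAB, e2, Matrix.one_mulVec] at e1
    exact e1
  have hKK : Module.finrank K Kxy ≤ Module.finrank K Kyx := by
    have hmap : ∀ v ∈ Kxy, Y.mulVecLin v ∈ Kyx := by
      intro v hv
      simp only [Kxy, Kyx, LinearMap.mem_ker, Matrix.mulVecLin_apply, Matrix.sub_mulVec,
        Matrix.one_mulVec, sub_eq_zero] at hv ⊢
      rw [Matrix.mulVec_mulVec, mul_assoc, ← Matrix.mulVec_mulVec, ← hv]
    refine LinearMap.finrank_le_finrank_of_injective (f := Y.mulVecLin.restrict hmap) ?_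
    rintro ⟨u, hu⟩ ⟨v, hv⟩ huv
    have h : Y.mulVec u = Y.mulVec v := congrArg Subtype.val huv
    simp only [Kxy, LinearMap.mem_ker, Matrix.mulVecLin_apply, Matrix.sub_mulVec,
      Matrix.one_mulVec, sub_eq_zero] at hu hv
    apply Subtype.ext
    change u = v
    rw [hu, hv, ← Matrix.mulVec_mulVec, ← Matrix.mulVec_mulVec, h]
  have hKE : Kyx ⊓ W ≤ KE := by
    rintro _ ⟨hv, v, rfl⟩
    simp only [Kyx, SetLike.mem_coe, LinearMap.mem_ker, Matrix.mulVecLin_apply,
      Matrix.sub_mulVec, Matrix.one_mulVec, sub_eq_zero] at hv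
    simp only [KE, LinearMap.mem_ker, Matrix.mulVecLin_apply]
    rw [mulVec_congr_extendZero (k := k) good (T E) (1 - Y * X) ?_ v, Matrix.sub_mulVec,
      Matrix.one_mulVec, ← hv, sub_self]
    intro p q hq
    have hsub : T E p q + T (B * A) p q = T 1 p q := by
      simp only [T, approxMat, Matrix.of_apply, ← approxEntry_add, hE]
      simp
    rw [Matrix.sub_apply, ← hTmul B A hB hA p q hq, ← hTone p q hq, ← hsub]
    ring
  have hdimKE : 2 * (k * good.card) ≤ Module.finrank K KE + k * n := by
    have h2 := Submodule.finrank_sup_add_finrank_inf_eq Kyx W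
    have h3 := Submodule.finrank_mono hKE
    have h4 := Submodule.finrank_le (Kyx ⊔ W)
    have h5 := Submodule.finrank_mono hWxy
    simp only [Module.finrank_fintype_fun_eq_card, Fintype.card_prod, Fintype.card_fin] at h4
    rw [hW] at h2 h5
    omega
  let img : Fin n → Finset (Fin n) := fun x => S.image fun g => σ g x
  let P : Finset (Finset (Fin n)) := good.powerset.filter fun Z : Finset (Fin n) => (↑Z : Set (Fin n)).PairwiseDisjoint img
  obtain ⟨Z, hZP, hZmax⟩ := Finset.exists_max_image P Finset.card ⟨∅, by simp [P]⟩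
  simp only [P, Finset.mem_filter, Finset.mem_powerset] at hZP
  obtain ⟨hZgood, hZdisj⟩ := hZP
  have hcover : good.card ≤ Z.card * (S.card * S.card) := by
    have hsub : good ⊆ Z.biUnion fun x =>
        (S ×ˢ S).image fun p => (σ p.2).symm (σ p.1 x) := by
      intro y hy
      by_cases hyZ : y ∈ Z
      · refine Finset.mem_biUnion.mpr ⟨y, hyZ, Finset.mem_image.mpr ⟨(g₀, g₀), ?_, by simp⟩⟩
        simpa [S] using hg₀
      · by_contra hnc
        have hins : insert y Z ∈ P := by
          simp only [P, Finset.mem_filter, Finset.mem_powerset]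
          refine ⟨Finset.insert_subset hy hZgood, ?_⟩
          rw [Finset.coe_insert]
          refine hZdisj.insert fun x hx _ => ?_
          rw [Finset.disjoint_left]
          intro z hz1 hz2
          simp only [img, Finset.mem_image] at hz1 hz2
          obtain ⟨h, hh, rfl⟩ := hz1
          obtain ⟨g, hg, hgx⟩ := hz2
          exact hnc (Finset.mem_biUnion.mpr ⟨x, hx, Finset.mem_image.mpr
            ⟨(g, h), Finset.mem_product.mpr ⟨hg, hh⟩, by simp [hgx]⟩⟩)
        have := hZmax _ hins
        rw [Finset.card_insert_of_notMem hyZ] at this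
        omega
    refine (Finset.card_le_card hsub).trans (Finset.card_biUnion_le.trans ?_)
    refine (Finset.sum_le_card_nsmul _ _ (S.card * S.card) fun x _ => ?_).trans
      (le_of_eq (smul_eq_mul _ _))
    exact Finset.card_image_le.trans (le_of_eq (Finset.card_product _ _))
  have hSF₀ : ∀ g ∈ S, g ∈ F₀ := fun g hg => by simp [F₀, hsup E i₀ j₀ hg]
  have huniq : ∀ x ∈ good, ∀ g ∈ S, ∀ h ∈ S, σ g x = σ h x → g = h := by
    intro x hx g hg h hh e
    by_contra hne'
    have hgi : g⁻¹ ∈ F₁ :=
      Finset.mem_union_right _ (Finset.mem_image_of_mem _ (hSF₀ g hg))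
    have hprod : g⁻¹ * h ∈ F :=
      Finset.mem_union_right _ (Finset.mem_image.mpr
        ⟨(g⁻¹, h), Finset.mem_product.mpr ⟨hgi, Finset.mem_union_left _ (hSF₀ h hh)⟩, rfl⟩)
    refine (hgood x hx).2 _ hprod (fun e1 => hne' (inv_mul_eq_one.mp e1)) ?_
    have e2 := (hgood x hx).1 g⁻¹ (Finset.mem_union_left _ hgi) g (hF₀ (hSF₀ g hg))
    rw [inv_mul_cancel, hone x hx] at e2
    rw [(hgood x hx).1 g⁻¹ (Finset.mem_union_left _ hgi) h (hF₀ (hSF₀ h hh)), ← e, ← e2]
  have hZdim : Z.card + Module.finrank K KE ≤ k * n := by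
    let ι : (Z → K) →ₗ[K] (Fin k × Fin n → K) :=
      { toFun := fun v p => if h : p.2 ∈ Z ∧ p.1 = j₀ then v ⟨p.2, h.1⟩ else 0
        map_add' := fun u v => by
          funext p
          by_cases h : p.2 ∈ Z ∧ p.1 = j₀ <;> simp [h]
        map_smul' := fun c v => by
          funext p
          by_cases h : p.2 ∈ Z ∧ p.1 = j₀ <;> simp [h] }
    have hinj : ∀ v, (T E).mulVecLin (ι v) = 0 → v = 0 := by
      intro v hv
      funext z
      obtain ⟨z, hz⟩ := z
      have h := congrFun hv (i₀, σ g₀ z)
      have hterm : ∀ q : Fin k × Fin n, q ≠ (j₀, z) →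
          T E (i₀, σ g₀ z) q * ι v q = 0 := by
        rintro ⟨j, y⟩ hq
        by_cases hc : y ∈ Z ∧ j = j₀
        · obtain ⟨hy, rfl⟩ := hc
          have hyz : y ≠ z := fun e => hq (by rw [e])
          have hdis := hZdisj hy hz hyz
          have : T E (i₀, σ g₀ z) (j, y) = 0 := by
            simp only [T, approxMat, Matrix.of_apply, approxEntry, Finsupp.sum]
            refine Finset.sum_eq_zero fun g hg => if_neg fun e => ?_
            exact Finset.disjoint_left.mp hdis (Finset.mem_image_of_mem _ hg)
              (e ▸ Finset.mem_image_of_mem (fun g => σ g z) (Finsupp.mem_support_iff.mpr hg₀))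
          rw [this, zero_mul]
        · change _ * (if h : y ∈ Z ∧ j = j₀ then _ else 0) = 0
          rw [dif_neg hc, mul_zero]
      simp only [Matrix.mulVecLin_apply, Matrix.mulVec, dotProduct, Pi.zero_apply] at h
      rw [Finset.sum_eq_single (j₀, z) (fun q _ hq => hterm q hq) (by simp)] at h
      have hval : T E (i₀, σ g₀ z) (j₀, z) = (E i₀ j₀).coeff g₀ := by
        simp only [T, approxMat, Matrix.of_apply, approxEntry, Finsupp.sum]
        rw [Finset.sum_eq_single g₀ (fun g hg hne' => if_neg fun e =>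
          hne' (huniq z (hZgood hz) g hg g₀ (Finsupp.mem_support_iff.mpr hg₀) e))
          (fun h => absurd (Finsupp.mem_support_iff.mpr hg₀) h)]
        simp
      rw [hval] at h
      have h2 : ι v (j₀, z) = v ⟨z, hz⟩ := by simp [ι, hz]
      rw [h2] at h
      simpa [hg₀] using h
    have hi : Function.Injective ((T E).mulVecLin ∘ₗ ι) :=
      (injective_iff_map_eq_zero _).mpr hinj
    have h6 : Z.card ≤ Module.finrank K (LinearMap.range (T E).mulVecLin) := by
      refine le_trans ?_ (Submodule.finrank_mono (LinearMap.range_comp_le_range ι _))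
      rw [LinearMap.finrank_range_of_inj hi]
      simp
    have h7 := (T E).mulVecLin.finrank_range_add_finrank_ker
    simp only [Module.finrank_fintype_fun_eq_card, Fintype.card_prod, Fintype.card_fin] at h7
    change Z.card + Module.finrank K (LinearMap.ker (T E).mulVecLin) ≤ k * n
    omega
  have hgc : good.card + bad.card = n := by
    rw [Finset.card_compl, Fintype.card_fin]
    have := Finset.card_le_univ bad
    rw [Fintype.card_fin] at this
    omega
  have hZbad : Z.card ≤ 2 * (k * bad.card) := by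
    have : k * good.card + k * bad.card = k * n := by rw [← Nat.mul_add, hgc]
    omega
  have hfin : n ≤ D * bad.card := by
    calc n = good.card + bad.card := hgc.symm
      _ ≤ Z.card * (S.card * S.card) + bad.card := by omega
      _ ≤ 2 * (k * bad.card) * (S.card * S.card) + bad.card := by gcongr
      _ ≤ D * bad.card := by
        simp only [D]
        nlinarith [Nat.zero_le (k * bad.card), Nat.zero_le (S.card * S.card * bad.card)]
  have h8 : (D * C + 1) * n ≤ D * (C * n) := by
    calc (D * C + 1) * n ≤ (D * C + 1) * (D * bad.card) := Nat.mul_le_mul le_rfl hfin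
      _ = D * ((D * C + 1) * bad.card) := by ring
      _ ≤ D * (C * n) := Nat.mul_le_mul le_rfl hbad
  have h9 : D * (C * n) + n ≤ D * (C * n) := by
    have : (D * C + 1) * n = D * (C * n) + n := by ring
    omega
  omega

end Vale.Agent.P194.Indicable
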