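import Vale.Agent.P194.Indicable.Tree
import Vale.Agent.P174.Alg

/-!
Spreading vectors over a group algebra along degrees in an additive group.
-/

open scoped Classical

namespace Vale.Agent.P194.Indicable

open MonoidAlgebra

variable {K : Type*} [Field K] {G : Type*} [Group G] {V : Type*} [AddCommGroup V] {J : Type*}

/-- The augmentation of a group algebra. -/
noncomputable def augG (K G : Type*) [Field K] [Group G] : MonoidAlgebra K G →ₐ[K] K :=
  MonoidAlgebra.lift K K G 1

lemma augG_single (g : G) (a : K) : augG K G (single g a) = a := by
  simp [augG, lift_single]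

/-- The augmentation of the algebra of the weight group. -/
noncomputable def augV (K V : Type*) [Field K] [AddCommGroup V] :
    AddMonoidAlgebra K V →ₐ[K] K :=
  AddMonoidAlgebra.lift K K V 1

lemma augV_single (v : V) (a : K) : augV K V (AddMonoidAlgebra.single v a) = a := by
  simp [augV, AddMonoidAlgebra.lift_single]

/-- Elements of nonzero augmentation are not zero divisors. -/
def AugRegular (K V : Type*) [Field K] [AddCommGroup V] : Prop :=
  ∀ x y : AddMonoidAlgebra K V, augV K V x ≠ 0 → y * x = 0 → y = 0

/-- Send every monomial to the level given by its degree. -/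
noncomputable def spread (δ : J → G → V) (v : V) :
    (J →₀ MonoidAlgebra K G) →+ (J × V →₀ MonoidAlgebra K G) :=
  Finsupp.liftAddHom fun j =>
    (Finsupp.liftAddHom fun h =>
      (Finsupp.singleAddHom (j, v + δ j h)).comp (MonoidAlgebra.singleAddHom h)).comp
      MonoidAlgebra.coeffAddEquiv.toAddMonoidHom

lemma spread_single (δ : J → G → V) (v : V) (j : J) (h : G) (a : K) :
    spread δ v (Finsupp.single j (single h a)) = Finsupp.single (j, v + δ j h) (single h a) := by
  simp [spread]

lemma coeff_spread (δ : J → G → V) (v : V) (f : J →₀ MonoidAlgebra K G) (j : J) (w : V) (h : G) :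
    (spread δ v f (j, w)).coeff h = if v + δ j h = w then (f j).coeff h else 0 := by
  induction f using Finsupp.induction_linear with
  | zero => simp
  | add f₁ f₂ h₁ h₂ =>
    simp only [map_add, Finsupp.add_apply, coeff_add, h₁, h₂]
    split_ifs <;> simp
  | single j' x =>
    induction x using MonoidAlgebra.induction_linear with
    | zero => simp
    | add x₁ x₂ h₁ h₂ =>
      rw [Finsupp.single_add, map_add]
      simp only [Finsupp.add_apply, coeff_add, h₁, h₂]
      split_ifs <;> simp
    | single h' a =>
      rw [spread_single]
      simp only [Finsupp.single_apply, Prod.mk.injEq]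
      by_cases hj : j' = j
      · subst hj
        by_cases hh : h' = h
        · subst hh
          by_cases hw : v + δ j' h' = w <;> simp [hw]
        · split_ifs <;> simp_all
      · simp [hj]

lemma augV_spread_indep (hV : AugRegular K V) {I : Type*} (δ : I → J → G → V)
    (M : I → J →₀ MonoidAlgebra K G)
    (hM : LinearIndependent K fun i => (M i).mapRange (augG K G) (map_zero _)) :
    LinearIndependent K fun p : I × V =>
      (spread (δ p.1) p.2 (M p.1)).mapRange (augG K G) (map_zero _) := by
  let R := AddMonoidAlgebra K V
  let Φ : ((J × V) →₀ K) →ₗ[K] (J →₀ R) :=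
    Finsupp.linearCombination K fun p => Finsupp.single p.1 (AddMonoidAlgebra.single p.2 1)
  let aH : (J × V →₀ MonoidAlgebra K G) →+ (J × V →₀ K) :=
    Finsupp.mapRange.addMonoidHom (augG K G).toAddMonoidHom
  let P : I → V → (J →₀ MonoidAlgebra K G) →+ (J →₀ R) := fun i v =>
    Φ.toAddMonoidHom.comp (aH.comp (spread (δ i) v))
  have hP0 : ∀ i v j h a, P i v (Finsupp.single j (single h a)) =
      Finsupp.single j (AddMonoidAlgebra.single (v + δ i j h) a) := by
    intro i v j h a
    simp [P, aH, Φ, spread_single, augG_single]
    congr 1
    exact (AddMonoidAlgebra.smul_single' a (v + δ i j h) (1 : K)).trans (by rw [mul_one])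
  have hshift : ∀ i v f, P i v f = (AddMonoidAlgebra.single v 1 : R) • P i 0 f := by
    intro i v f
    induction f using Finsupp.induction_linear with
    | zero => simp
    | add f₁ f₂ h₁ h₂ => simp [map_add, h₁, h₂]
    | single j x =>
      induction x using MonoidAlgebra.induction_linear with
      | zero => simp
      | add x₁ x₂ h₁ h₂ => rw [Finsupp.single_add, map_add, map_add, h₁, h₂, smul_add]
      | single h a => simp [hP0, AddMonoidAlgebra.single_mul_single]
  have haug : ∀ i f, (P i 0 f).mapRange (augV K V) (map_zero _) =
      f.mapRange (augG K G) (map_zero _) := by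
    intro i f
    induction f using Finsupp.induction_linear with
    | zero => simp
    | add f₁ f₂ h₁ h₂ => simp [map_add, Finsupp.mapRange_add, h₁, h₂]
    | single j x =>
      induction x using MonoidAlgebra.induction_linear with
      | zero => simp
      | add x₁ x₂ h₁ h₂ =>
        rw [Finsupp.single_add, map_add, Finsupp.mapRange_add (map_add _),
          Finsupp.mapRange_add (map_add _), h₁, h₂]
      | single h a => simp [hP0, augV_single, augG_single]
  have hR : LinearIndependent R fun i => P i 0 (M i) := by
    refine Vale.Agent.P174.linearIndependent_of_retraction (augV K V) hV _ ?_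
    simpa only [haug] using hM
  have hB : LinearIndependent K fun v : V => (AddMonoidAlgebra.single v 1 : R) := by
    apply LinearIndependent.of_comp (AddMonoidAlgebra.coeffLinearEquiv K).toLinearMap
    simpa [Function.comp_def] using (Finsupp.linearIndependent_single_one K V)
  have h2 := (linearIndependent_smul hB hR).comp Prod.swap Prod.swap_injective
  apply LinearIndependent.of_comp Φ
  convert h2 using 1
  funext p
  simp only [Function.comp_apply, Prod.fst_swap, Prod.snd_swap]
  rw [← hshift]
  rfl

end Vale.Agent.P194.Indicable
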