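import Vale.Agent.P194.Indicable.Strebel

/-!
Stable finiteness passes up along indicable normal subgroups.
-/

open scoped Classical

namespace Vale.Agent.P194.Indicable

open MonoidAlgebra

variable {K : Type*} [Field K] {G : Type*} [Group G]

lemma regular_int : AugRegular K ℤ := by
  intro x y hx h
  rcases mul_eq_zero.mp h with h | h
  · exact h
  · simp [h] at hx

lemma regular_zmod_charP (p : ℕ) [Fact p.Prime] [CharP K p] : AugRegular K (ZMod p) := by
  intro x y hx h
  have : CharP (AddMonoidAlgebra K (ZMod p)) p :=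
    charP_of_injective_algebraMap (algebraMap K _).injective p
  have key : ∀ z : AddMonoidAlgebra K (ZMod p),
      z ^ p = AddMonoidAlgebra.single 0 (augV K (ZMod p) z ^ p) := by
    intro z
    induction z using AddMonoidAlgebra.induction_linear with
    | zero => simp [zero_pow (Fact.out : p.Prime).ne_zero]
    | add a b ha hb =>
      rw [add_pow_char a b, ha, hb, map_add, add_pow_char, AddMonoidAlgebra.single_add]
    | single g a => simp [AddMonoidAlgebra.single_pow, augV_single]
  obtain ⟨q, hq⟩ : ∃ q, p = q + 1 := ⟨p - 1, by have := (Fact.out : p.Prime).pos; omega⟩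
  have e : x ^ p = x * x ^ q := by
    conv_lhs => arg 2; rw [hq]
    exact pow_succ' x q
  have h1 : y * x ^ p = 0 := by rw [e, ← mul_assoc, h, zero_mul]
  rw [key] at h1
  have h2 := congrArg
    (fun z => z * AddMonoidAlgebra.single (0 : ZMod p) (augV K (ZMod p) x ^ p)⁻¹) h1
  simp only [zero_mul, mul_assoc, AddMonoidAlgebra.single_mul_single, add_zero] at h2
  rw [mul_inv_cancel₀ (pow_ne_zero _ hx), ← AddMonoidAlgebra.one_def, mul_one] at h2
  exact h2

variable (N : Subgroup G) [N.Normal]

/-- Split monomials by their coset. -/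
noncomputable def push {J : Type*} (l : G) :
    (J →₀ MonoidAlgebra K G) →+ (J × (G ⧸ N) →₀ MonoidAlgebra K G) :=
  Finsupp.liftAddHom fun j =>
    (Finsupp.liftAddHom fun h =>
      (Finsupp.singleAddHom (j, (QuotientGroup.mk (l * h) : G ⧸ N))).comp
        (MonoidAlgebra.singleAddHom (l * h * ((QuotientGroup.mk (l * h) : G ⧸ N).out)⁻¹))).comp
      MonoidAlgebra.coeffAddEquiv.toAddMonoidHom

lemma push_single {J : Type*} (l : G) (j : J) (h : G) (a : K) :
    push N l (Finsupp.single j (single h a)) =
      Finsupp.single (j, (QuotientGroup.mk (l * h) : G ⧸ N))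
        (single (l * h * ((QuotientGroup.mk (l * h) : G ⧸ N).out)⁻¹) a) := by
  simp [push]

lemma coeff_push {J : Type*} (l : G) (f : J →₀ MonoidAlgebra K G) (j : J) (q : G ⧸ N) (y : G) :
    (push N l f (j, q)).coeff y = if y ∈ N then (f j).coeff (l⁻¹ * y * q.out) else 0 := by
  induction f using Finsupp.induction_linear with
  | zero => simp
  | add f₁ f₂ h₁ h₂ =>
    simp only [map_add, Finsupp.add_apply, coeff_add, h₁, h₂]
    split_ifs <;> simp
  | single j' x =>
    induction x using MonoidAlgebra.induction_linear with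
    | zero => simp
    | add x₁ x₂ h₁ h₂ =>
      rw [Finsupp.single_add, map_add]
      simp only [Finsupp.add_apply, coeff_add, h₁, h₂]
      split_ifs <;> simp
    | single h a =>
      rw [push_single]
      by_cases hj : j' = j
      · subst hj
        by_cases hh : h = l⁻¹ * y * q.out
        · have hq : (QuotientGroup.mk (l * h) : G ⧸ N) = q ↔ y ∈ N := by
            rw [hh, show l * (l⁻¹ * y * q.out) = y * q.out by group, QuotientGroup.mk_mul,
              QuotientGroup.out_eq', mul_eq_right, QuotientGroup.eq_one_iff]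
          by_cases hy : y ∈ N
          · have hq' := hq.mpr hy
            have : l * h * q.out⁻¹ = y := by rw [hh]; group
            simp [hq', this, hy, hh.symm]
          · rw [Finsupp.single_apply, if_neg (fun e => hy (hq.mp (Prod.ext_iff.mp e).2))]
            simp [hy]
        · by_cases hq : (QuotientGroup.mk (l * h) : G ⧸ N) = q
          · have : ¬ l * h * q.out⁻¹ = y := fun e => hh (by rw [← e]; group)
            simp [hq, this, hh]
          · rw [Finsupp.single_apply, if_neg (fun e => hq (Prod.ext_iff.mp e).2)]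
            simp [hh]
      · simp [hj, Finsupp.single_apply]

lemma aug_push {J : Type*} (l : G) (f : J →₀ MonoidAlgebra K G) (j : J) (q : G ⧸ N) :
    augG K G (push N l f (j, q)) =
      (MonoidAlgebra.mapDomainRingHom K (QuotientGroup.mk' N) (f j)).coeff
        ((QuotientGroup.mk l : G ⧸ N)⁻¹ * q) := by
  induction f using Finsupp.induction_linear with
  | zero => simp
  | add f₁ f₂ h₁ h₂ => simp [map_add, h₁, h₂]
  | single j' x =>
    induction x using MonoidAlgebra.induction_linear with
    | zero => simp
    | add x₁ x₂ h₁ h₂ =>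
      rw [Finsupp.single_add, map_add]
      simp only [Finsupp.add_apply, map_add, h₁, h₂, coeff_add]
    | single h a =>
      rw [push_single]
      by_cases hj : j' = j
      · subst hj
        have : (QuotientGroup.mk (l * h) : G ⧸ N) = q ↔
            (QuotientGroup.mk h : G ⧸ N) = (QuotientGroup.mk l : G ⧸ N)⁻¹ * q := by
          rw [eq_inv_mul_iff_mul_eq, QuotientGroup.mk_mul]
        rw [QuotientGroup.mk_mul] at this ⊢
        simp only [Finsupp.single_apply, Prod.mk.injEq, true_and]
        by_cases hq : (QuotientGroup.mk h : G ⧸ N) = (QuotientGroup.mk l : G ⧸ N)⁻¹ * q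
        · simp [this.mpr hq, hq, augG_single]
        · simp [mt this.mp hq, hq, Finsupp.single_apply]
      · simp [hj, Finsupp.single_apply]

lemma push_mono {J : Type*} (x : J →₀ MonoidAlgebra K G) :
    push N 1 x = ∑ j ∈ x.support, ∑ g ∈ (x j).coeff.support,
      Finsupp.single (j, (QuotientGroup.mk g : G ⧸ N))
        (single (g * ((QuotientGroup.mk g : G ⧸ N).out)⁻¹) ((x j).coeff g)) := by
  conv_lhs => rw [← Finsupp.sum_single x, Finsupp.sum]
  rw [map_sum]
  refine Finset.sum_congr rfl fun j _ => ?_
  conv_lhs => rw [← MonoidAlgebra.sum_coeff_single (x j)]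
  rw [Finsupp.sum, Finsupp.single_finsetSum, map_sum]
  refine Finset.sum_congr rfl fun g _ => ?_
  rw [push_single, one_mul]

/-- An injective ring homomorphism reflects stable finiteness. -/
lemma stablyFinite_of_injective {R S : Type*} [Ring R] [Ring S] [IsStablyFiniteRing S]
    (f : R →+* S) (hf : Function.Injective f) : IsStablyFiniteRing R := by
  refine ⟨fun n => ⟨fun {A B} h => ?_⟩⟩
  have hinj : Function.Injective (f.mapMatrix : Matrix (Fin n) (Fin n) R → _) :=
    fun A B e => Matrix.ext fun i j => hf (congrFun (congrFun e i) j)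
  apply hinj
  rw [map_mul, map_one]
  exact mul_eq_one_symm (by rw [← map_mul, h, map_one])

/-- Stable finiteness passes from the quotient to the group. -/
theorem stablyFinite_of_quotient {V : Type} [AddCommGroup V] (hV : AugRegular K V)
    (hN : IndicableIn V N) [IsStablyFiniteRing (MonoidAlgebra K (G ⧸ N))] :
    IsStablyFiniteRing (MonoidAlgebra K G) := by
  refine ⟨fun n => ⟨fun {A B} hAB => ?_⟩⟩
  let f := MonoidAlgebra.mapDomainRingHom K (QuotientGroup.mk' N)
  have hb : f.mapMatrix B * f.mapMatrix A = 1 :=
    mul_eq_one_symm (by rw [← map_mul, hAB, map_one])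
  have key : ∀ x : Fin n → MonoidAlgebra K G, Matrix.vecMul x B = 0 → x = 0 := by
    intro x hx
    let xf : Fin n →₀ MonoidAlgebra K G := Finsupp.equivFunOnFinite.symm x
    let M : Fin n × (G ⧸ N) → (Fin n × (G ⧸ N) →₀ MonoidAlgebra K G) :=
      fun p => push N p.2.out (Finsupp.equivFunOnFinite.symm fun j => B p.1 j)
    let c := push N 1 xf
    have hlab : ∀ p q h, (M p q).coeff h ≠ 0 → h ∈ N := by
      rintro p ⟨j, q⟩ h hh
      by_contra hn
      exact hh (by simp [M, coeff_push, hn])
    have hind : LinearIndependent K fun p => (M p).mapRange (augG K G) (map_zero _) := by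
      rw [linearIndependent_iff']
      intro s a ha
      let xb : Fin n → MonoidAlgebra K (G ⧸ N) := fun i =>
        ∑ p ∈ s, if p.1 = i then single p.2 (a p) else 0
      have hxb : Matrix.vecMul xb (f.mapMatrix B) = 0 := by
        ext j q
        have h1 := congrArg (fun v : Fin n × (G ⧸ N) →₀ K => v (j, q)) ha
        simp only [Finsupp.finsetSum_apply, Finsupp.smul_apply, Finsupp.mapRange_apply,
          smul_eq_mul, Finsupp.zero_apply, M, aug_push, QuotientGroup.out_eq',
          Finsupp.coe_equivFunOnFinite_symm] at h1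
        simp only [Matrix.vecMul, dotProduct, xb, Finset.sum_mul, ite_mul, zero_mul,
          coeff_sum, Finsupp.finsetSum_apply, Pi.zero_apply, coeff_zero, Finsupp.zero_apply]
        rw [Finset.sum_comm]
        refine Eq.trans (Finset.sum_congr rfl fun p _ => ?_) h1
        rw [Finset.sum_eq_single p.1 (fun i _ hi => by simp [Ne.symm hi]) (by simp)]
        simp [MonoidAlgebra.coeff_single_mul_apply, f]
      have h2 : xb = 0 := by
        have := congrArg (fun v => Matrix.vecMul v (f.mapMatrix A)) hxb
        simp only [Matrix.vecMul_vecMul, hb, Matrix.vecMul_one, Matrix.zero_vecMul] at this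
        exact this
      intro p hp
      have h3 := congrArg (fun z : MonoidAlgebra K (G ⧸ N) => z.coeff p.2) (congrFun h2 p.1)
      simp only [xb, coeff_sum, Finsupp.finsetSum_apply, Pi.zero_apply, coeff_zero,
        Finsupp.zero_apply] at h3
      rw [Finset.sum_eq_single p ?_ (absurd hp)] at h3
      · simpa using h3
      · rintro ⟨i, q⟩ _ hne
        by_cases hi : i = p.1
        · have : q ≠ p.2 := fun e => hne (Prod.ext hi e)
          simp [hi, this]
        · simp [hi]
    have hrel : ∀ q, c.sum (fun p y => y * M p q) = 0 := by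
      rintro ⟨j, q⟩
      let Ψ : (Fin n × (G ⧸ N) →₀ MonoidAlgebra K G) →+ MonoidAlgebra K G :=
        Finsupp.liftAddHom fun p => AddMonoidHom.mulRight (M p (j, q))
      change Ψ c = 0
      simp only [c, push_mono, map_sum, Ψ, Finsupp.liftAddHom_apply_single,
        AddMonoidHom.coe_mulRight]
      ext z
      have hterm : ∀ i g, (single (g * ((QuotientGroup.mk g : G ⧸ N).out)⁻¹) ((xf i).coeff g) *
          M (i, QuotientGroup.mk g) (j, q)).coeff z =
            if z ∈ N then (single g ((xf i).coeff g) * B i j).coeff (z * q.out) else 0 := by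
        intro i g
        simp only [MonoidAlgebra.coeff_single_mul_apply, M, coeff_push,
          Finsupp.coe_equivFunOnFinite_symm]
        have hmem : (g * ((QuotientGroup.mk g : G ⧸ N).out)⁻¹)⁻¹ * z ∈ N ↔ z ∈ N := by
          refine Subgroup.mul_mem_cancel_left _ (N.inv_mem ?_)
          rw [← QuotientGroup.eq_one_iff, QuotientGroup.mk_mul, QuotientGroup.mk_inv,
            QuotientGroup.out_eq', mul_inv_cancel]
        simp only [hmem]
        split_ifs
        · congr 2
          group
        · simp
      simp only [coeff_sum, Finsupp.finsetSum_apply, coeff_zero, Finsupp.zero_apply, hterm]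
      by_cases hz : z ∈ N
      · simp only [hz, if_true]
        have h0 := congrArg (fun y : MonoidAlgebra K G => y.coeff (z * q.out)) (congrFun hx j)
        simp only [Matrix.vecMul, dotProduct, coeff_sum, Finsupp.finsetSum_apply, Pi.zero_apply,
          coeff_zero, Finsupp.zero_apply] at h0
        rw [← Finset.sum_subset (Finset.subset_univ xf.support) fun i _ hi => by
          rw [show x i = 0 by simpa [xf] using hi]; simp] at h0
        refine Eq.trans (Finset.sum_congr rfl fun i _ => ?_) h0
        conv_rhs => rw [show x i = xf i by simp [xf], ← MonoidAlgebra.sum_coeff_single (xf i)]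
        simp [Finsupp.sum, Finset.sum_mul, Finsupp.finsetSum_apply]
      · simp [hz]
    have hc := eq_zero_of_relation hV hN _ _ _ M c hlab hind hrel rfl
    funext i
    ext g
    have h4 := coeff_push N 1 xf i (QuotientGroup.mk g)
      (g * ((QuotientGroup.mk g : G ⧸ N).out)⁻¹)
    rw [show push N 1 xf = c from rfl, hc] at h4
    have hg : g * ((QuotientGroup.mk g : G ⧸ N).out)⁻¹ ∈ N := by
      rw [← QuotientGroup.eq_one_iff, QuotientGroup.mk_mul, QuotientGroup.mk_inv,
        QuotientGroup.out_eq', mul_inv_cancel]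
    simpa [hg, xf] using h4.symm
  have hE : (1 - B * A) * B = 0 := by rw [sub_mul, one_mul, mul_assoc, hAB, mul_one, sub_self]
  have h0 : 1 - B * A = 0 := by
    refine Matrix.ext fun i j => ?_
    exact congrFun (key (fun l => (1 - B * A) i l) (funext fun l => congrFun (congrFun hE i) l)) j
  exact (sub_eq_zero.mp h0).symm

/-- Group algebras of residually finite groups are stably finite. -/
theorem stablyFinite_of_residuallyFinite (Q : Type*) [Group Q] [Group.ResiduallyFinite Q] :
    IsStablyFiniteRing (MonoidAlgebra K Q) := by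
  refine ⟨fun n => ⟨fun {A B} hAB => ?_⟩⟩
  by_contra hne
  obtain ⟨i, j, hij⟩ : ∃ i j, (B * A) i j - (1 : Matrix (Fin n) (Fin n) (MonoidAlgebra K Q)) i j
      ≠ 0 := by
    by_contra hc
    push Not at hc
    exact hne (Matrix.ext fun i j => sub_eq_zero.mp (hc i j))
  set z := (B * A) i j - (1 : Matrix (Fin n) (Fin n) (MonoidAlgebra K Q)) i j with hz
  obtain ⟨g, hg⟩ : ∃ g, z.coeff g ≠ 0 := by
    by_contra hc
    push Not at hc
    exact hij (by ext g; simp [hc g])
  have hex : ∀ g', ∃ H : FiniteIndexNormalSubgroup Q, g' ≠ g → g⁻¹ * g' ∉ H := by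
    intro g'
    by_cases h : g' = g
    · obtain ⟨H⟩ : Nonempty (FiniteIndexNormalSubgroup Q) :=
        ⟨FiniteIndexNormalSubgroup.ofSubgroup ⊤⟩
      exact ⟨H, fun h' => absurd h h'⟩
    · obtain ⟨H, hH⟩ := Group.exists_finiteIndexNormalSubgroup_notMem
        (g⁻¹ * g') (fun e => h (inv_mul_eq_one.mp e).symm)
      exact ⟨H, fun _ => hH⟩
  choose H hH using hex
  let L : Subgroup Q := ⨅ g' : z.coeff.support, (H g'.1).toSubgroup
  have : L.Normal := Subgroup.normal_iInf_normal fun g' => (H g'.1).isNormal'
  have : L.FiniteIndex := Subgroup.finiteIndex_iInf fun g' => (H g'.1).isFiniteIndex'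
  let f := MonoidAlgebra.mapDomainRingHom K (QuotientGroup.mk' L)
  have : Module.Finite K (MonoidAlgebra K (Q ⧸ L)) :=
    Module.Finite.of_basis (MonoidAlgebra.basis (Q ⧸ L) K)
  have : IsStablyFiniteRing (MonoidAlgebra K (Q ⧸ L)) :=
    stablyFinite_of_injective (Algebra.lmul K (MonoidAlgebra K (Q ⧸ L))).toRingHom
      (Algebra.lmul_injective (R := K) (A := MonoidAlgebra K (Q ⧸ L)))
  have hBA : f.mapMatrix (B * A) = 1 := by
    rw [map_mul]
    exact mul_eq_one_symm (by rw [← map_mul, hAB, map_one])
  have hfz : f z = 0 := by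
    rw [hz, map_sub]
    have h1 : f ((B * A) i j) = f.mapMatrix (B * A) i j := rfl
    have h2 : f ((1 : Matrix (Fin n) (Fin n) (MonoidAlgebra K Q)) i j) = f.mapMatrix 1 i j := rfl
    rw [h1, h2, hBA, map_one, sub_self]
  have h3 := congrArg (fun y : MonoidAlgebra K (Q ⧸ L) => y.coeff (QuotientGroup.mk g)) hfz
  simp only [f, MonoidAlgebra.mapDomainRingHom_apply, coeff_zero, Finsupp.zero_apply] at h3
  rw [MonoidAlgebra.coeff_mapDomain] at h3
  simp only [Finsupp.mapDomain, Finsupp.sum, Finsupp.finsetSum_apply, Finsupp.single_apply] at h3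
  rw [Finset.sum_eq_single g ?_ (fun h => absurd (Finsupp.mem_support_iff.mpr hg) h)] at h3
  · simp at h3
    exact hg h3
  · intro g' hg' hne'
    rw [if_neg]
    intro e
    have hmem : g⁻¹ * g' ∈ L := QuotientGroup.eq.mp (Eq.symm e)
    exact hH g' hne' (Subgroup.mem_iInf.mp hmem ⟨g', hg'⟩)

end Vale.Agent.P194.Indicable
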