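import Vale.Agent.P194.Indicable.Spread

/-!
Rows with independent augmentations are independent, when the labels generate an indicable group.
-/

open scoped Classical

namespace Vale.Agent.P194.Indicable

open MonoidAlgebra

universe u

variable {K : Type*} [Field K] {G : Type*} [Group G] {V : Type} [AddCommGroup V]

/-- Every nontrivial finitely generated subgroup of `S` maps nontrivially to `V`. -/
def IndicableIn (V : Type*) [AddCommGroup V] (S : Subgroup G) : Prop :=
  ∀ L : Subgroup G, L ≤ S → L.FG → L ≠ ⊥ → ∃ φ : L →* Multiplicative V, φ ≠ 1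

/-- The monomials of a row. -/
noncomputable def rowEdges {J : Type*} (f : J →₀ MonoidAlgebra K G) : Finset (J × G) :=
  f.support.biUnion fun j => (f j).coeff.support.image (Prod.mk j)

lemma mem_rowEdges {J : Type*} (f : J →₀ MonoidAlgebra K G) (e : J × G) :
    e ∈ rowEdges f ↔ (f e.1).coeff e.2 ≠ 0 := by
  obtain ⟨j, h⟩ := e
  simp only [rowEdges, Finset.mem_biUnion, Finset.mem_image, Prod.mk.injEq,
    Finsupp.mem_support_iff]
  constructor
  · rintro ⟨j', -, h', hh, rfl, rfl⟩
    exact hh
  · intro hh
    exact ⟨j, fun h0 => hh (by simp [h0]), h, hh, rfl, rfl⟩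

lemma rowEdges_spread {J : Type*} (δ : J → G → V) (v : V) (f : J →₀ MonoidAlgebra K G) :
    rowEdges (spread δ v f) = (rowEdges f).image fun e => ((e.1, v + δ e.1 e.2), e.2) := by
  ext ⟨⟨j, w⟩, h⟩
  simp only [mem_rowEdges, Finset.mem_image, coeff_spread, Prod.mk.injEq]
  constructor
  · intro hne
    rw [ne_eq, ite_eq_right_iff, Classical.not_imp] at hne
    exact ⟨(j, h), hne.2, ⟨rfl, hne.1⟩, rfl⟩
  · rintro ⟨⟨j', h'⟩, hne, ⟨rfl, rfl⟩, rfl⟩
    simpa using hne

lemma card_rowEdges_spread {J : Type*} (δ : J → G → V) (v : V) (f : J →₀ MonoidAlgebra K G) :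
    (rowEdges (spread δ v f)).card = (rowEdges f).card := by
  rw [rowEdges_spread]
  apply Finset.card_image_of_injective
  rintro ⟨a, b⟩ ⟨c, d⟩ h
  simp only [Prod.mk.injEq] at h
  exact Prod.ext h.1.1 h.2

section measure

variable {I J : Type*}

/-- The edges of the rows used by a combination. -/
noncomputable def edgeSet (M : I → J →₀ MonoidAlgebra K G) (c : I →₀ MonoidAlgebra K G) :
    Finset (I × J × G) :=
  c.support.biUnion fun i => (rowEdges (M i)).image (Prod.mk i)

lemma mem_edgeSet (M : I → J →₀ MonoidAlgebra K G) (c : I →₀ MonoidAlgebra K G)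
    (e : I × J × G) : e ∈ edgeSet M c ↔ c e.1 ≠ 0 ∧ (M e.1 e.2.1).coeff e.2.2 ≠ 0 := by
  obtain ⟨i, e⟩ := e
  simp only [edgeSet, Finset.mem_biUnion, Finset.mem_image, Prod.mk.injEq, mem_rowEdges,
    Finsupp.mem_support_iff]
  constructor
  · rintro ⟨i', hi, e', he, rfl, rfl⟩
    exact ⟨hi, he⟩
  · rintro ⟨hi, he⟩
    exact ⟨i, hi, e, he, rfl, rfl⟩

/-- Rows, columns and edges used. -/
noncomputable def size (M : I → J →₀ MonoidAlgebra K G) (c : I →₀ MonoidAlgebra K G) : ℕ :=
  c.support.card + ((edgeSet M c).image fun e => e.2.1).card + (edgeSet M c).card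

lemma size_eq {inst : DecidableEq J} (M : I → J →₀ MonoidAlgebra K G)
    (c : I →₀ MonoidAlgebra K G) : size M c = c.support.card +
      (@Finset.image _ _ inst (fun e => e.2.1) (edgeSet M c)).card + (edgeSet M c).card := by
  cases Subsingleton.elim inst (Classical.decEq J)
  rfl

/-- A weighted count of the monomials of a combination. -/
noncomputable def weight (c : I →₀ MonoidAlgebra K G) (F : I → ℕ) : ℕ :=
  ∑ i ∈ c.support, (c i).coeff.support.card * F i

lemma card_support_le_weight (c : I →₀ MonoidAlgebra K G) :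
    c.support.card ≤ weight c fun _ => 1 := by
  rw [Finset.card_eq_sum_ones, weight]
  refine Finset.sum_le_sum fun i hi => ?_
  rw [mul_one, Nat.one_le_iff_ne_zero, Finset.card_ne_zero]
  by_contra h
  rw [Finset.not_nonempty_iff_eq_empty, Finsupp.support_eq_empty] at h
  exact Finsupp.mem_support_iff.mp hi (by ext g; simp [h])

/-- An upper bound for the size, preserved by lifting. -/
noncomputable def bound (M : I → J →₀ MonoidAlgebra K G) (c : I →₀ MonoidAlgebra K G) : ℕ :=
  (weight c fun _ => 1) + 2 * weight c fun i => (rowEdges (M i)).card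

lemma size_le (M : I → J →₀ MonoidAlgebra K G) (c : I →₀ MonoidAlgebra K G) :
    size M c ≤ bound M c := by
  have h1 := card_support_le_weight c
  have h2 : (edgeSet M c).card ≤ weight c fun i => (rowEdges (M i)).card := by
    refine Finset.card_biUnion_le.trans (Finset.sum_le_sum fun i hi => ?_)
    refine Finset.card_image_le.trans (Nat.le_mul_of_pos_left _ ?_)
    rw [Finset.card_pos]
    by_contra h
    rw [Finset.not_nonempty_iff_eq_empty, Finsupp.support_eq_empty] at h
    exact Finsupp.mem_support_iff.mp hi (by ext g; simp [h])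
  have h3 := Finset.card_image_le (s := edgeSet M c) (f := fun e => e.2.1)
  simp only [size, bound]
  omega

lemma weight_spread (dc : I → G → V) (c : I →₀ MonoidAlgebra K G) (F : I → ℕ) :
    weight (spread dc 0 c) (fun p => F p.1) = weight c F := by
  have hL : weight (spread dc 0 c) (fun p => F p.1) =
      ∑ x ∈ (spread dc 0 c).support.sigma fun p => (spread dc 0 c p).coeff.support, F x.1.1 := by
    rw [weight, Finset.sum_sigma]
    simp
  have hR : weight c F = ∑ x ∈ c.support.sigma fun i => (c i).coeff.support, F x.1 := by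
    rw [weight, Finset.sum_sigma]
    simp
  rw [hL, hR]
  refine Finset.sum_nbij' (fun x => ⟨x.1.1, x.2⟩) (fun x => ⟨(x.1, dc x.1 x.2), x.2⟩) ?_ ?_ ?_ ?_
    (fun _ _ => rfl)
  · rintro ⟨⟨i, v⟩, g⟩ hx
    simp only [Finset.mem_sigma, Finsupp.mem_support_iff, coeff_spread, zero_add] at hx ⊢
    have h2 : (c i).coeff g ≠ 0 := fun h => hx.2 (by simp [h])
    exact ⟨fun h => h2 (by simp [h]), h2⟩
  · rintro ⟨i, g⟩ hx
    simp only [Finset.mem_sigma, Finsupp.mem_support_iff, coeff_spread, zero_add, if_true] at hx ⊢
    refine ⟨fun h => hx.2 ?_, hx.2⟩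
    have := coeff_spread (K := K) dc 0 c i (dc i g) g
    rw [h] at this
    simpa using this.symm
  · rintro ⟨⟨i, v⟩, g⟩ hx
    simp only [Finset.mem_sigma, Finsupp.mem_support_iff, coeff_spread, zero_add] at hx
    have hv : dc i g = v := by
      by_contra h
      exact hx.2 (if_neg h)
    simp [hv]
  · intro x _
    rfl

end measure

lemma spread_mono {I : Type*} (dc : I → G → V) (c : I →₀ MonoidAlgebra K G) :
    spread dc 0 c = ∑ i ∈ c.support, ∑ g ∈ (c i).coeff.support,
      Finsupp.single (i, dc i g) (single g ((c i).coeff g)) := by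
  conv_lhs => rw [← Finsupp.sum_single c, Finsupp.sum]
  rw [map_sum]
  refine Finset.sum_congr rfl fun i _ => ?_
  have : c i = ∑ g ∈ (c i).coeff.support, single g ((c i).coeff g) :=
    (MonoidAlgebra.sum_coeff_single (c i)).symm
  conv_lhs => rw [this]
  rw [Finsupp.single_finsetSum, map_sum]
  refine Finset.sum_congr rfl fun g _ => ?_
  rw [spread_single, zero_add]

lemma spread_relation {I J : Type*} (M : I → J →₀ MonoidAlgebra K G)
    (c : I →₀ MonoidAlgebra K G) (dc : I → G → V) (δ : I → J → G → V) (D : J → G → V)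
    (hcompat : ∀ i, c i ≠ 0 → ∀ j h, (M i j).coeff h ≠ 0 → ∀ g, D j (g * h) = dc i g + δ i j h)
    (hrel : ∀ j, c.sum (fun i x => x * M i j) = 0) (j : J) (w : V) :
    (spread dc 0 c).sum (fun p x => x * spread (δ p.1) p.2 (M p.1) (j, w)) = 0 := by
  let Ψ : (I × V →₀ MonoidAlgebra K G) →+ MonoidAlgebra K G :=
    Finsupp.liftAddHom fun p => AddMonoidHom.mulRight (spread (δ p.1) p.2 (M p.1) (j, w))
  change Ψ (spread dc 0 c) = 0
  rw [spread_mono, map_sum]
  simp only [map_sum, Ψ, Finsupp.liftAddHom_apply_single, AddMonoidHom.coe_mulRight]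
  ext x
  have key : ∀ i ∈ c.support, ∀ g,
      (single g ((c i).coeff g) * spread (δ i) (dc i g) (M i) (j, w)).coeff x =
        if D j x = w then (single g ((c i).coeff g) * M i j).coeff x else 0 := by
    intro i hi g
    simp only [MonoidAlgebra.coeff_single_mul_apply, coeff_spread]
    by_cases hm : (M i j).coeff (g⁻¹ * x) = 0
    · simp [hm]
    · have := hcompat i (Finsupp.mem_support_iff.mp hi) j _ hm g
      rw [mul_inv_cancel_left] at this
      rw [this]
      split_ifs <;> simp
  simp only [coeff_sum, Finsupp.finsetSum_apply]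
  rw [Finset.sum_congr rfl fun i hi => Finset.sum_congr rfl fun g _ => key i hi g]
  by_cases hw : D j x = w
  · simp only [hw, if_true]
    have h0 := congrArg (fun y : MonoidAlgebra K G => y.coeff x) (hrel j)
    simp only [Finsupp.sum, coeff_sum, Finsupp.finsetSum_apply, coeff_zero,
      Finsupp.zero_apply] at h0
    refine Eq.trans (Finset.sum_congr rfl fun i _ => ?_) h0
    conv_rhs => rw [← MonoidAlgebra.sum_coeff_single (c i)]
    simp [Finsupp.sum, Finset.sum_mul, Finsupp.finsetSum_apply]
  · simp [hw]

/-- Coset degree attached to a character of a subgroup. -/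
noncomputable def cosetDeg (L : Subgroup G) (φ : L →* Multiplicative V) (x : G) : V :=
  (φ ⟨(QuotientGroup.mk x : G ⧸ L).out⁻¹ * x,
    QuotientGroup.eq.mp (Quotient.out_eq (QuotientGroup.mk x : G ⧸ L))⟩).toAdd

lemma cosetDeg_mul (L : Subgroup G) (φ : L →* Multiplicative V) (x : G) (l : L) :
    cosetDeg L φ (x * (l : G)) = cosetDeg L φ x + (φ l).toAdd := by
  have hq : (QuotientGroup.mk (x * (l : G)) : G ⧸ L) = QuotientGroup.mk x :=
    QuotientGroup.eq.mpr (by simp)
  simp only [cosetDeg]
  rw [← toAdd_mul, ← map_mul]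
  congr 2
  ext
  simp [hq, mul_assoc]

/-- Strebel's property, relative to a subgroup containing the labels. -/
theorem eq_zero_of_relation (hV : AugRegular K V) {S : Subgroup G} (hS : IndicableIn V S) :
    ∀ (n : ℕ) (I J : Type u) (M : I → J →₀ MonoidAlgebra K G) (c : I →₀ MonoidAlgebra K G),
      (∀ i j h, (M i j).coeff h ≠ 0 → h ∈ S) →
      LinearIndependent K (fun i => (M i).mapRange (augG K G) (map_zero _)) →
      (∀ j, c.sum (fun i x => x * M i j) = 0) →
      bound M c - size M c = n → c = 0 := by
  intro n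
  induction n using Nat.strong_induction_on with
  | _ n ih =>
  intro I J M c hlab hind hrel hn
  let E := edgeSet M c
  obtain ⟨d, hdS, hd⟩ := exists_tree E (fun e : I × J × G => (Sum.inl e.1 : I ⊕ J))
    (fun e => Sum.inr e.2.1) (fun e => e.2.2) (S := S)
    (fun e he => hlab _ _ _ ((mem_edgeSet M c e).mp he).2)
  let gl : I → J → G → G := fun i j h => d (Sum.inl i) * h * (d (Sum.inr j))⁻¹
  let L : Subgroup G := Subgroup.closure ↑(E.image fun e => gl e.1 e.2.1 e.2.2)
  have hLS : L ≤ S := by
    rw [Subgroup.closure_le]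
    intro x hx
    obtain ⟨e, he, rfl⟩ := Finset.mem_image.mp (Finset.mem_coe.mp hx)
    exact S.mul_mem (S.mul_mem (hdS _) (hlab _ _ _ ((mem_edgeSet M c e).mp he).2))
      (S.inv_mem (hdS _))
  have hmemL : ∀ i, c i ≠ 0 → ∀ j h, (M i j).coeff h ≠ 0 → gl i j h ∈ L := fun i hi j h hh =>
    Subgroup.subset_closure (Finset.mem_coe.mpr (Finset.mem_image.mpr
      ⟨(i, j, h), (mem_edgeSet M c _).mpr ⟨hi, hh⟩, rfl⟩))
  by_cases hbot : L = ⊥
  · ext i x
    rw [Finsupp.zero_apply, coeff_zero, Finsupp.zero_apply]
    have hh : ∀ i, c i ≠ 0 → ∀ j h, (M i j).coeff h ≠ 0 →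
        h = (d (Sum.inl i))⁻¹ * d (Sum.inr j) := by
      intro i hi j h hm
      have := hmemL i hi j h hm
      rw [hbot, Subgroup.mem_bot, mul_inv_eq_one] at this
      rw [← this]
      group
    have hmono : ∀ i, c i ≠ 0 → ∀ j,
        M i j = single ((d (Sum.inl i))⁻¹ * d (Sum.inr j)) (augG K G (M i j)) := by
      intro i hi j
      have hsum : M i j = single ((d (Sum.inl i))⁻¹ * d (Sum.inr j))
          ((M i j).coeff ((d (Sum.inl i))⁻¹ * d (Sum.inr j))) := by
        ext h
        rw [coeff_single, Finsupp.single_apply]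
        split_ifs with e
        · rw [e]
        · by_contra hne
          exact e (hh i hi j h hne).symm
      conv_rhs => rw [hsum, augG_single]
      exact hsum
    let a : I → K := fun i => if i ∈ c.support then (c i).coeff (x * d (Sum.inl i)) else 0
    have ha : ∀ y, (fun i => if i ∈ c.support then (c i).coeff (y * d (Sum.inl i)) else 0) =
        fun _ => (0 : K) := by
      intro y
      have h0 : ∑ i ∈ c.support, (c i).coeff (y * d (Sum.inl i)) •
          (M i).mapRange (augG K G) (map_zero _) = 0 := by
        ext j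
        simp only [Finsupp.finsetSum_apply, Finsupp.smul_apply, Finsupp.mapRange_apply,
          smul_eq_mul, Finsupp.zero_apply]
        have h1 := congrArg (fun z : MonoidAlgebra K G => z.coeff (y * d (Sum.inr j))) (hrel j)
        simp only [Finsupp.sum, coeff_sum, Finsupp.finsetSum_apply, coeff_zero,
          Finsupp.zero_apply] at h1
        refine Eq.trans (Finset.sum_congr rfl fun i hi => ?_) h1
        conv_rhs => rw [hmono i (Finsupp.mem_support_iff.mp hi) j]
        rw [MonoidAlgebra.coeff_mul_single_apply]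
        congr 2
        group
      have := linearIndependent_iff'.mp hind c.support _ h0
      funext i
      split_ifs with hi
      · exact this i hi
      · rfl
    have h2 := congrFun (ha (x * (d (Sum.inl i))⁻¹)) i
    simp only [inv_mul_cancel_right] at h2
    split_ifs at h2 with hi
    · exact h2
    · rw [Finsupp.notMem_support_iff.mp hi]; simp
  · obtain ⟨φ, hφ⟩ := hS L hLS ⟨_, rfl⟩ hbot
    let δ : I → J → G → V := fun i j h =>
      if hm : gl i j h ∈ L then (φ ⟨_, hm⟩).toAdd else 0
    let dc : I → G → V := fun i g => cosetDeg L φ (g * (d (Sum.inl i))⁻¹)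
    let D : J → G → V := fun j x => cosetDeg L φ (x * (d (Sum.inr j))⁻¹)
    have hcompat : ∀ i, c i ≠ 0 → ∀ j h, (M i j).coeff h ≠ 0 →
        ∀ g, D j (g * h) = dc i g + δ i j h := by
      intro i hi j h hm g
      have hl := hmemL i hi j h hm
      simp only [D, dc, δ, dif_pos hl]
      rw [← cosetDeg_mul L φ _ ⟨_, hl⟩]
      congr 1
      simp [gl, mul_assoc]
    let M' : I × V → J × V →₀ MonoidAlgebra K G := fun p => spread (δ p.1) p.2 (M p.1)
    let c' := spread dc 0 c
    have hrel' : ∀ q, c'.sum (fun p x => x * M' p q) = 0 := fun q =>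
      spread_relation M c dc δ D hcompat hrel q.1 q.2
    have hlab' : ∀ p q h, (M' p q).coeff h ≠ 0 → h ∈ S := by
      rintro ⟨i, v⟩ ⟨j, w⟩ h hh
      refine hlab i j h fun h0 => hh ?_
      simp [M', coeff_spread, h0]
    have hind' := augV_spread_indep hV δ M hind
    have hb : bound M' c' = bound M c := by
      simp only [bound, M', c', card_rowEdges_spread]
      rw [weight_spread dc c (fun _ => 1), weight_spread dc c fun i => (rowEdges (M i)).card]
    suffices hc' : c' = 0 by
      ext i x
      have := coeff_spread (K := K) dc 0 c i (dc i x) x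
      rw [show spread dc 0 c = c' from rfl, hc'] at this
      simpa using this.symm
    refine ih (bound M' c' - size M' c') ?_ (I × V) (J × V) M' c' hlab' hind' hrel' rfl
    suffices hlt : size M c < size M' c' by
      have := size_le M' c'
      omega
    let prE : (I × V) × (J × V) × G → I × J × G := fun e => (e.1.1, e.2.1.1, e.2.2)
    have hrows : c'.support.image Prod.fst = c.support := by
      ext i
      simp only [Finset.mem_image, Finsupp.mem_support_iff]
      constructor
      · rintro ⟨⟨i, v⟩, hp, rfl⟩ h0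
        apply hp
        ext g
        rw [coeff_spread, h0]
        simp
      · intro hi
        obtain ⟨g, hg⟩ : ∃ g, (c i).coeff g ≠ 0 := by
          by_contra hno
          push Not at hno
          exact hi (by ext g; simp [hno g])
        refine ⟨(i, dc i g), fun h0 => hg ?_, rfl⟩
        have := coeff_spread (K := K) dc 0 c i (dc i g) g
        rw [show spread dc 0 c = c' from rfl, h0] at this
        simpa using this.symm
    have hedge' : ∀ e, e ∈ edgeSet M' c' → prE e ∈ E ∧
        e.1.2 + δ e.1.1 e.2.1.1 e.2.2 = e.2.1.2 := by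
      rintro ⟨⟨i, v⟩, ⟨j, w⟩, h⟩ he
      rw [mem_edgeSet] at he
      obtain ⟨h1, h2⟩ := he
      simp only [M', coeff_spread, ne_eq, ite_eq_right_iff, Classical.not_imp] at h2
      refine ⟨(mem_edgeSet M c _).mpr ⟨?_, h2.2⟩, h2.1⟩
      have : i ∈ c'.support.image Prod.fst :=
        Finset.mem_image.mpr ⟨(i, v), Finsupp.mem_support_iff.mpr h1, rfl⟩
      rw [hrows] at this
      exact Finsupp.mem_support_iff.mp this
    have hedges : (edgeSet M' c').image prE = E := by
      ext e
      constructor
      · intro he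
        obtain ⟨e', he', rfl⟩ := Finset.mem_image.mp he
        exact (hedge' e' he').1
      · obtain ⟨i, j, h⟩ := e
        intro he
        obtain ⟨hi, hm⟩ := (mem_edgeSet M c _).mp he
        have : i ∈ c'.support.image Prod.fst := by
          rw [hrows]; exact Finsupp.mem_support_iff.mpr hi
        obtain ⟨⟨i', v⟩, hp, rfl⟩ := Finset.mem_image.mp this
        refine Finset.mem_image.mpr ⟨((i', v), (j, v + δ i' j h), h), ?_, rfl⟩
        rw [mem_edgeSet]
        exact ⟨Finsupp.mem_support_iff.mp hp, by simpa [M', coeff_spread] using hm⟩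
    have hcols : ((edgeSet M' c').image fun e => e.2.1).image Prod.fst =
        E.image fun e => e.2.1 := by
      ext j
      simp only [Finset.mem_image, ← hedges]
      constructor
      · rintro ⟨q, ⟨e, he, rfl⟩, rfl⟩
        exact ⟨prE e, ⟨e, he, rfl⟩, rfl⟩
      · rintro ⟨_, ⟨e, he, rfl⟩, rfl⟩
        exact ⟨e.2.1, ⟨e, he, rfl⟩, rfl⟩
    have h1 : c.support.card ≤ c'.support.card := hrows ▸ Finset.card_image_le
    have h2 : (E.image fun e => e.2.1).card ≤ ((edgeSet M' c').image fun e => e.2.1).card :=
      hcols ▸ Finset.card_image_le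
    have h3 : E.card ≤ (edgeSet M' c').card := hedges ▸ Finset.card_image_le
    by_contra hle
    have hsz : size M c = c.support.card + (E.image fun e => e.2.1).card + E.card := size_eq M c
    have hsz' : size M' c' = c'.support.card + ((edgeSet M' c').image fun e => e.2.1).card +
        (edgeSet M' c').card := size_eq M' c'
    have hr : Set.InjOn Prod.fst (c'.support : Set (I × V)) :=
      Finset.card_image_iff.mp (by rw [hrows]; omega)
    have hcl : Set.InjOn Prod.fst
        (((edgeSet M' c').image fun e => e.2.1 : Finset (J × V)) : Set (J × V)) :=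
      Finset.card_image_iff.mp (by rw [hcols]; omega)
    let p : I ⊕ J → V := Sum.elim
      (fun i => if hv : ∃ v, (i, v) ∈ c'.support then Classical.choose hv else 0)
      (fun j => if hv : ∃ w, (j, w) ∈ (edgeSet M' c').image fun e => e.2.1 then
        Classical.choose hv else 0)
    refine hφ (hd L rfl φ p fun e he hm => ?_)
    rw [← hedges] at he
    obtain ⟨⟨⟨i, v⟩, ⟨j, w⟩, h⟩, he', rfl⟩ := Finset.mem_image.mp he
    have hsrc : (i, v) ∈ c'.support :=
      Finsupp.mem_support_iff.mpr ((mem_edgeSet M' c' _).mp he').1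
    have htgt : (j, w) ∈ (edgeSet M' c').image fun e => e.2.1 :=
      Finset.mem_image.mpr ⟨_, he', rfl⟩
    have hv : p (Sum.inl i) = v := by
      have hex : ∃ v, (i, v) ∈ c'.support := ⟨v, hsrc⟩
      simp only [p, Sum.elim_inl, dif_pos hex]
      exact congrArg Prod.snd (hr (Classical.choose_spec hex) hsrc rfl)
    have hw : p (Sum.inr j) = w := by
      have hex : ∃ w, (j, w) ∈ (edgeSet M' c').image fun e => e.2.1 := ⟨w, htgt⟩
      simp only [p, Sum.elim_inr, dif_pos hex]
      exact congrArg Prod.snd (hcl (Classical.choose_spec hex) htgt rfl)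
    have hdelta : v + δ i j h = w := (hedge' _ he').2
    change _ = p (Sum.inr j) - p (Sum.inl i)
    rw [hv, hw, ← hdelta, add_sub_cancel_left]
    simp only [δ]
    rw [dif_pos (show gl i j h ∈ L from hm)]

end Vale.Agent.P194.Indicable
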