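import Mathlib

/-!
A gauge on a finite labelled graph for which potentials only see trivial characters.
-/

open scoped Classical

namespace Vale.Agent.P194.Indicable

variable {α Vx G : Type*} [Group G] (E : Finset α) (src tgt : α → Vx) (lab : α → G)

/-- Values of walks along the edges. -/
inductive Conn : Vx → Vx → G → Prop
  | refl (x : Vx) : Conn x x 1
  | fwd {x : Vx} {g : G} (e : α) (he : e ∈ E) :
      Conn x (src e) g → Conn x (tgt e) (g * lab e)
  | bwd {x : Vx} {g : G} (e : α) (he : e ∈ E) :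
      Conn x (tgt e) g → Conn x (src e) (g * (lab e)⁻¹)

variable {E src tgt lab}

lemma Conn.trans {x y z : Vx} {g h : G} (h1 : Conn E src tgt lab x y g)
    (h2 : Conn E src tgt lab y z h) : Conn E src tgt lab x z (g * h) := by
  induction h2 with
  | refl => simpa using h1
  | fwd e he _ ih => rw [← mul_assoc]; exact Conn.fwd e he ih
  | bwd e he _ ih => rw [← mul_assoc]; exact Conn.bwd e he ih

lemma Conn.symm {x y : Vx} {g : G} (h1 : Conn E src tgt lab x y g) :
    Conn E src tgt lab y x g⁻¹ := by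
  induction h1 with
  | refl => simpa using Conn.refl x
  | fwd e he _ ih =>
    rw [mul_inv_rev]
    have := Conn.bwd e he (Conn.refl (E := E) (src := src) (lab := lab) (tgt e))
    rw [one_mul] at this
    exact this.trans ih
  | bwd e he _ ih =>
    rw [mul_inv_rev, inv_inv]
    have := Conn.fwd e he (Conn.refl (E := E) (tgt := tgt) (lab := lab) (src e))
    rw [one_mul] at this
    exact this.trans ih

lemma Conn.mem {S : Subgroup G} (hS : ∀ e ∈ E, lab e ∈ S) {x y : Vx} {g : G}
    (h : Conn E src tgt lab x y g) : g ∈ S := by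
  induction h with
  | refl => exact S.one_mem
  | fwd e he _ ih => exact S.mul_mem ih (hS e he)
  | bwd e he _ ih => exact S.mul_mem ih (S.inv_mem (hS e he))

variable (E src tgt lab)

lemma exists_tree {S : Subgroup G} (hS : ∀ e ∈ E, lab e ∈ S) :
    ∃ d : Vx → G, (∀ x, d x ∈ S) ∧
      ∀ L : Subgroup G, (L = Subgroup.closure
          ↑(E.image fun e => d (src e) * lab e * (d (tgt e))⁻¹)) →
        ∀ {V : Type*} [AddCommGroup V] (φ : L →* Multiplicative V) (p : Vx → V),
          (∀ e ∈ E, ∀ h : d (src e) * lab e * (d (tgt e))⁻¹ ∈ L,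
            (φ ⟨_, h⟩).toAdd = p (tgt e) - p (src e)) → φ = 1 := by
  let C : Setoid Vx :=
    { r := fun x y => ∃ g, Conn E src tgt lab x y g
      iseqv := ⟨fun x => ⟨1, Conn.refl x⟩, fun ⟨g, h⟩ => ⟨g⁻¹, h.symm⟩,
        fun ⟨g, h⟩ ⟨g', h'⟩ => ⟨g * g', h.trans h'⟩⟩ }
  let root : Vx → Vx := fun x => (Quotient.mk C x).out
  have hroot : ∀ x, ∃ g, Conn E src tgt lab (root x) x g := fun x =>
    Quotient.exact (s := C) (Quotient.out_eq _)
  choose d hd using hroot
  refine ⟨d, fun x => (hd x).mem hS, ?_⟩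
  intro L hL V _ φ p hp
  have hgen : ∀ e ∈ E, d (src e) * lab e * (d (tgt e))⁻¹ ∈ L := fun e he => by
    rw [hL]
    exact Subgroup.subset_closure (Finset.mem_coe.mpr (Finset.mem_image_of_mem _ he))
  have hpot : ∀ {x y g}, Conn E src tgt lab x y g → ∃ hm : d x * g * (d y)⁻¹ ∈ L,
      (φ ⟨_, hm⟩).toAdd = p y - p x := by
    intro x y g h
    induction h with
    | refl =>
      refine ⟨by simp, ?_⟩
      have : (⟨d x * 1 * (d x)⁻¹, by simp⟩ : L) = 1 := by ext; simp
      rw [this, _root_.map_one, toAdd_one, sub_self]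
    | @fwd g e he _ ih =>
      obtain ⟨hm, hv⟩ := ih
      have hl := hgen e he
      have eq1 : d x * (g * lab e) * (d (tgt e))⁻¹ =
          (d x * g * (d (src e))⁻¹) * (d (src e) * lab e * (d (tgt e))⁻¹) := by group
      refine ⟨eq1 ▸ L.mul_mem hm hl, ?_⟩
      have eq2 : (⟨_, eq1 ▸ L.mul_mem hm hl⟩ : L) = ⟨_, hm⟩ * ⟨_, hl⟩ := Subtype.ext eq1
      rw [eq2, map_mul, toAdd_mul, hv, hp e he hl]
      abel
    | @bwd g e he _ ih =>
      obtain ⟨hm, hv⟩ := ih
      have hl := hgen e he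
      have eq1 : d x * (g * (lab e)⁻¹) * (d (src e))⁻¹ =
          (d x * g * (d (tgt e))⁻¹) * (d (src e) * lab e * (d (tgt e))⁻¹)⁻¹ := by group
      refine ⟨eq1 ▸ L.mul_mem hm (L.inv_mem hl), ?_⟩
      have eq2 : (⟨_, eq1 ▸ L.mul_mem hm (L.inv_mem hl)⟩ : L) = ⟨_, hm⟩ * ⟨_, hl⟩⁻¹ :=
        Subtype.ext eq1
      rw [eq2, map_mul, map_inv, toAdd_mul, toAdd_inv, hv, hp e he hl]
      abel
  have key : ∀ x, p x - p (root x) =
      if h : d (root x) ∈ L then (φ ⟨_, h⟩).toAdd else 0 := by
    intro x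
    obtain ⟨hm, hv⟩ := hpot (hd x)
    simp only [mul_inv_cancel_right] at hm hv
    rw [dif_pos hm, hv]
  have hconst : ∀ e ∈ E, p (tgt e) = p (src e) := by
    intro e he
    have hr : root (src e) = root (tgt e) :=
      congrArg Quotient.out (Quotient.sound (s := C) ⟨_, Conn.fwd e he (Conn.refl _)⟩)
    have h1 := key (src e)
    have h2 := key (tgt e)
    rw [← hr, ← h1] at h2
    exact sub_left_injective h2
  subst hL
  apply MonoidHom.eq_of_eqOn_top
  have hon : Set.EqOn φ (1 : _ →* Multiplicative V)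
      (((↑) : Subgroup.closure _ → G) ⁻¹'
        ↑(E.image fun e => d (src e) * lab e * (d (tgt e))⁻¹)) := by
    rintro ⟨x, hxm⟩ hx
    obtain ⟨e, he, eq⟩ : ∃ e ∈ E, d (src e) * lab e * (d (tgt e))⁻¹ = x :=
      Finset.mem_image.mp (Finset.mem_coe.mp hx)
    subst eq
    have := hp e he hxm
    rw [hconst e he, sub_self] at this
    simpa using this
  have := MonoidHom.eqOn_closure hon
  rwa [Subgroup.closure_closure_coe_preimage] at this

end Vale.Agent.P194.Indicable
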